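import Vale.Agent.P366.H707.CH.Area
import Vale.Agent.P366.H45.G17
import Vale.Agent.P366.H222.N.X7

/-! The area of the boundary of the region outside several strictly convex bodies: the powers. -/

open MeasureTheory Metric Filter Topology Set
open scoped ContDiff ENNReal

noncomputable section
namespace Vale.Agent.P366.CH

open Vale.Agent.P366 (pd E flux)
open Vale.Agent.P366.H353.N
open Vale.Agent.P366.Kerr (NullCone Psi)
open Vale.Agent.P366.KSN (Y dts sg Ms bflux OO mem_OO isOpen_OO)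
open Vale.Agent.H45G (gM rpow_sum_le rpow_sum_lt)

variable {n : ℕ} {ι : Type} {C : ι → NullCone n} {D : Stmt.Exterior n} {f : E n → ℝ}

/-- The Euclidean area of the surface of a body. -/
def arB (C : NullCone n) : ℝ := SI (fun x => dts C.H (C.U x) x)

lemma arB_pos [Fact (3 ≤ n)] (C : NullCone n) : 0 < arB C :=
  KSN.SI_pos (KSN.dts_cont C (KSN.smU C)) fun _ hx => KSN.dts_pos C hx le_rfl

lemma ne_bodies [Finite ι] (hB : Bodies D.F C) : Nonempty ι := by
  by_contra hcon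
  rw [not_nonempty_iff] at hcon
  obtain ⟨x, hx⟩ := D.bdry
  have := hB.pos_out D.dom.1 D.dom.2.1 (y := x) fun k => (hcon.false k).elim
  rw [hx] at this
  exact lt_irrefl _ this

/-- **[CH-Pow]** The areas. -/
theorem pow_bodies [Fact (3 ≤ n)] [Fintype ι] (hB : Bodies D.F C) (hf : Stmt.Smooth f)
    (hg : ∀ x, 0 ≤ D.F x → ∀ i j, D.g x i j = gM f x i j)
    (hlev : ∀ k x y, ‖x‖ = 1 → ‖y‖ = 1 → f (bp (C k) x) = f (bp (C k) y)) :
    D.Amin ≤ D.area D.F ∧ D.area D.F ≠ ⊤ ∧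
    0 < ∑ k, 1 / 2 * (arB (C k) / om n) ^ (((n : ℝ) - 2) / ((n : ℝ) - 1)) ∧
    (D.Amin.toReal / Stmt.omega n) ^ (((n : ℝ) - 2) / ((n : ℝ) - 1)) / 2 ≤
      ((D.area D.F).toReal / Stmt.omega n) ^ (((n : ℝ) - 2) / ((n : ℝ) - 1)) / 2 ∧
    ((D.area D.F).toReal / Stmt.omega n) ^ (((n : ℝ) - 2) / ((n : ℝ) - 1)) / 2 ≤
      ∑ k, 1 / 2 * (arB (C k) / om n) ^ (((n : ℝ) - 2) / ((n : ℝ) - 1)) ∧
    ((∃ j k : ι, j ≠ k) →
      ((D.area D.F).toReal / Stmt.omega n) ^ (((n : ℝ) - 2) / ((n : ℝ) - 1)) / 2 <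
        ∑ k, 1 / 2 * (arB (C k) / om n) ^ (((n : ℝ) - 2) / ((n : ℝ) - 1))) := by
  have hn : (3 : ℝ) ≤ (n : ℝ) := by exact_mod_cast Fact.out (p := 3 ≤ n)
  have hom : 0 < om n := om_pos
  have hne := ne_bodies hB
  have hA : D.area D.F ≤ ENNReal.ofReal (∑ k, arB (C k)) := area_bodies hB hf hg hlev
  have hmin : D.Amin ≤ D.area D.F := sInf_le ⟨D.F, D.dom, fun x hx => hx, rfl⟩
  have htop : D.area D.F ≠ ⊤ := ne_top_of_le_ne_top ENNReal.ofReal_ne_top hA
  have ha : ∀ k, 0 < arB (C k) / om n := fun k => div_pos (arB_pos (C k)) hom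
  have hS : 0 ≤ ∑ k, arB (C k) := Finset.sum_nonneg fun k _ => (arB_pos (C k)).le
  set p : ℝ := ((n : ℝ) - 2) / ((n : ℝ) - 1) with hp
  have hp0 : 0 < p := div_pos (by linarith) (by linarith)
  have hp1 : p < 1 := by rw [hp, div_lt_one (by linarith)]; linarith
  have hle : (D.area D.F).toReal ≤ ∑ k, arB (C k) := by
    have := ENNReal.toReal_mono ENNReal.ofReal_ne_top hA
    rwa [ENNReal.toReal_ofReal hS] at this
  have hle2 : (D.area D.F).toReal / om n ≤ ∑ k, arB (C k) / om n := by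
    rw [← Finset.sum_div]
    exact div_le_div_of_nonneg_right hle hom.le
  have h3 : ((D.area D.F).toReal / om n) ^ p ≤ (∑ k, arB (C k) / om n) ^ p :=
    Real.rpow_le_rpow (div_nonneg ENNReal.toReal_nonneg hom.le) hle2 hp0.le
  have h4 := rpow_sum_le Finset.univ (fun k => arB (C k) / om n) (fun k => (ha k).le) hp0 hp1.le
  have h5 : (D.Amin.toReal / om n) ^ p ≤ ((D.area D.F).toReal / om n) ^ p :=
    Real.rpow_le_rpow (div_nonneg ENNReal.toReal_nonneg hom.le)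
      (div_le_div_of_nonneg_right (ENNReal.toReal_mono htop hmin) hom.le) hp0.le
  have h6 : ∑ k, 1 / 2 * (arB (C k) / om n) ^ p = (∑ k, (arB (C k) / om n) ^ p) / 2 := by
    rw [← Finset.mul_sum]
    ring
  rw [KSN.om_eq, h6]
  refine ⟨hmin, htop, ?_, by linarith, by linarith, ?_⟩
  · have : 0 < ∑ k, (arB (C k) / om n) ^ p :=
      Finset.sum_pos (fun k _ => Real.rpow_pos_of_pos (ha k) _) Finset.univ_nonempty
    linarith
  · rintro ⟨j, k, hjk⟩
    have h7 := rpow_sum_lt (fun k => arB (C k) / om n) ha hp0 hp1 hjk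
    linarith

/-- Minkowski's inequality, summed. -/
theorem mink_sum [Fact (3 ≤ n)] [Fintype ι] {F : E n → ℝ} (hB : Bodies F C) :
    (∑ k, 1 / 2 * (arB (C k) / om n) ^ (((n : ℝ) - 2) / ((n : ℝ) - 1))) *
      (2 * ((n : ℝ) - 1) * om n) ≤ ∑ k, SI (fun x => sg (C k).H ((C k).U x) x) := by
  have hn : (3 : ℝ) ≤ (n : ℝ) := by exact_mod_cast Fact.out (p := 3 ≤ n)
  have hc : 0 < 2 * ((n : ℝ) - 1) * om n := by
    have : 0 < (n : ℝ) - 1 := by linarith
    have hom : 0 < om n := om_pos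
    positivity
  rw [Finset.sum_mul]
  refine Finset.sum_le_sum fun k _ => ?_
  obtain ⟨ρ, hρ⟩ := hB.rad k
  have h := mink_body (C := C k) hρ
  rwa [le_div_iff₀ hc] at h

end Vale.Agent.P366.CH
end
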