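import Vale.Agent.P366.H375.CH.Stokes
import Vale.Agent.P366.H745.CH.Bod
import Vale.Agent.P366.H745.CH.LevB
import Vale.Agent.P366.H45.G11

/-! The area of the boundary of the region outside several strictly convex bodies. -/

open MeasureTheory Metric Filter Topology Set
open scoped ContDiff ENNReal

noncomputable section
namespace Vale.Agent.P366.CH

open Vale.Agent.P366 (pd E flux)
open Vale.Agent.P366.H353.N
open Vale.Agent.P366.Kerr (NullCone Psi)
open Vale.Agent.P366.KSN (Y dts sg Ms bflux OO mem_OO isOpen_OO)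
open Vale.Agent.H45G (gM W2 W2_pos W2_ne smooth_W2 det_gM test_bound)

variable {n : ℕ} {ι : Type} {C : ι → NullCone n} {D : Stmt.Exterior n} {f : E n → ℝ}

/-- The surface of a body is a null set. -/
lemma bp_null [Fact (3 ≤ n)] (C : NullCone n) {ρ : ℝ} (hU : ∀ x, x ≠ 0 → C.U x = ρ) :
    volume (bp C '' sphere (0 : E n) 1) = 0 := by
  have h3 := Fact.out (p := 3 ≤ n)
  have : Nonempty (Fin n) := ⟨⟨0, by omega⟩⟩
  have : Nontrivial (E n) := inferInstance
  have he : bp C '' sphere (0 : E n) 1 = (fun z => Psi C.H (ρ • z)) '' sphere (0 : E n) 1 := by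
    refine image_congr fun x hx => ?_
    have hx1 : ‖x‖ = 1 := by simpa using hx
    have hx0 := ne_zero_of_one hx1
    have hρ : 0 < ρ := by
      rw [← hU x hx0]
      exact C.pos x hx0
    show Y C.H x (C.U x) = Psi C.H (ρ • x)
    rw [KSN.Y_eq C hx1 hρ, hU x hx0]
  rw [he]
  refine MeasureTheory.addHaar_image_eq_zero_of_differentiableOn_of_addHaar_eq_zero volume ?_
    (Measure.addHaar_sphere volume 0 1)
  intro x hx
  have hx1 : ‖x‖ = 1 := by simpa using hx
  have hx0 := ne_zero_of_one hx1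
  have hρ : 0 < ρ := by
    rw [← hU x hx0]
    exact C.pos x hx0
  have h1 : DifferentiableAt ℝ (Psi C.H) (ρ • x) :=
    (KSN.Psi_contDiffAt C (smul_ne_zero hρ.ne' hx0)).differentiableAt (by simp)
  have h2 : DifferentiableAt ℝ (fun z : E n => ρ • z) x := differentiableAt_id.const_smul ρ
  exact (DifferentiableAt.comp (g := Psi C.H) (f := fun z : E n => ρ • z) x h1
    h2).differentiableWithinAt

lemma OO_all_open [Finite ι] (C : ι → NullCone n) : IsOpen {y : E n | ∀ k, y ∈ OO (C k)} := by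
  have : {y : E n | ∀ k, y ∈ OO (C k)} = ⋂ k, OO (C k) := by ext; simp
  rw [this]
  exact isOpen_iInter_of_finite fun k => isOpen_OO (C k)

/-- The boundary is a null set. -/
lemma ae_dom [Fact (3 ≤ n)] [Finite ι] {F : E n → ℝ} (hB : Bodies F C) :
    ({y : E n | 0 ≤ F y} : Set (E n)) =ᵐ[volume] {y | ∀ k, y ∈ OO (C k)} := by
  refine ae_eq_set.2 ⟨?_, ?_⟩
  · have h1 : ({y : E n | 0 ≤ F y} \ {y | ∀ k, y ∈ OO (C k)} : Set (E n)) ⊆
        ⋃ k, bp (C k) '' sphere (0 : E n) 1 := by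
      rintro y ⟨hy, hn⟩
      rcases hB.cases hy with h | ⟨k, x, hx, rfl⟩
      · exact absurd h hn
      · exact mem_iUnion.2 ⟨k, x, by simpa using hx, rfl⟩
    refine measure_mono_null h1 (measure_iUnion_null fun k => ?_)
    obtain ⟨ρ, hρ⟩ := hB.rad k
    exact bp_null (C k) hρ
  · have h1 : ({y : E n | ∀ k, y ∈ OO (C k)} \ {y | 0 ≤ F y} : Set (E n)) = ∅ :=
      Set.sdiff_eq_empty.2 fun y hy => hB.nonneg hy
    rw [h1, measure_empty]

lemma cov_out {F : E n → ℝ} (hB : Bodies F C) (hD : Stmt.IsExt F) : ∃ R0 : ℝ, ∀ k (y : E n),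
    R0 < ‖y‖ → ∃ x s, ‖x‖ = 1 ∧ (C k).U x ≤ s ∧ Y (C k).H x s = y := by
  obtain ⟨R, hR⟩ := hD.2.2.2
  exact ⟨R, fun k y hy => (hB.dom y).1 (hR y hy).le k⟩

lemma bp_cont (C : NullCone n) : ContinuousOn (bp C) (sphere (0 : E n) 1) := by
  intro x hx
  have hx1 : ‖x‖ = 1 := by simpa using hx
  exact (KSN.Y_comp C (KSN.smU C) (ne_zero_of_one hx1)).continuousAt.continuousWithinAt

/-- The flux of a field with outer normal component at least `-1` through the boundary of a
body. -/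
lemma neg_bflux_le [Fact (3 ≤ n)] (C : NullCone n) {ρ : ℝ} (hU : ∀ x, x ≠ 0 → C.U x = ρ)
    {Z : Fin n → E n → ℝ} (hZ : ∀ i, Continuous (Z i))
    (h : ∀ x : E n, ‖x‖ = 1 → -(∑ i, Z i (bp C x) * x i) ≤ 1) :
    -SI (bflux C Z 0) ≤ SI (fun x => dts C.H (C.U x) x) := by
  have hc : ContinuousOn (fun x : E n => dts C.H (C.U x) x * ∑ i, Z i (bp C x) * x i)
      (sphere (0 : E n) 1) :=
    (KSN.dts_cont C (KSN.smU C)).mul (continuousOn_finsetSum _ fun i _ =>
      ((hZ i).comp_continuousOn (bp_cont C)).mul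
        (EuclideanSpace.proj (𝕜 := ℝ) i).continuous.continuousOn)
  have h1 : -SI (bflux C Z 0) = SI (fun x => -(dts C.H (C.U x) x *
      ∑ i, Z i (bp C x) * x i)) := by
    rw [SI_neg]
    congr 1
    exact SI_congr fun x hx => bflux_body hU Z hx
  rw [h1]
  refine SI_mono hc.neg (KSN.dts_cont C (KSN.smU C)) fun x hx => ?_
  have h2 := KSN.dts_pos C hx (le_refl (C.U x))
  have h3 := h x hx
  nlinarith

/-- **[CH-Area]** The area of the boundary. -/
theorem area_bodies [Fact (3 ≤ n)] [Fintype ι] (hB : Bodies D.F C) (hf : Stmt.Smooth f)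
    (hg : ∀ x, 0 ≤ D.F x → ∀ i j, D.g x i j = gM f x i j)
    (hlev : ∀ k x y, ‖x‖ = 1 → ‖y‖ = 1 → f (bp (C k) x) = f (bp (C k) y)) :
    D.area D.F ≤ ENNReal.ofReal (∑ k, SI (fun x => dts (C k).H ((C k).U x) x)) := by
  unfold Stmt.Exterior.area
  refine sSup_le ?_
  rintro a ⟨X, ⟨hX1, ⟨R, hX2⟩, hX3⟩, rfl⟩
  apply ENNReal.ofReal_le_ofReal
  set Z : Fin n → E n → ℝ := fun i x => √(W2 f x) * X i x with hZd
  have hws : Stmt.Smooth fun x => √(W2 f x) := ContDiff.sqrt (smooth_W2 hf) fun x => W2_ne f x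
  have hZ : ∀ i, Stmt.Smooth (Z i) := fun i => ContDiff.mul hws (hX1 i)
  have hC : ∀ i x, R < ‖x‖ → Z i x = 0 := fun i x hx => by
    simp only [hZd]
    rw [hX2 x hx i, mul_zero]
  rw [Vale.Agent.P366.vol_eq, setIntegral_congr_set (ae_dom hB)]
  have h1 : ∫ x in {y : E n | ∀ k, y ∈ OO (C k)},
      ∑ i, Stmt.pd i (fun y => √(Stmt.mat D.g y).det * X i y) x =
      ∫ x in {y : E n | ∀ k, y ∈ OO (C k)}, ∑ i, pd i (Z i) x := by
    refine setIntegral_congr_fun (OO_all_open C).measurableSet fun x hx => ?_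
    have hF0 := hB.pos_out D.dom.1 D.dom.2.1 hx
    refine Finset.sum_congr rfl fun i _ => ?_
    have h2 : Stmt.pd i (Z i) x = pd i (Z i) x :=
      Vale.Agent.P366.Bridge.pd_eq ((hZ i).differentiable (by simp) x) i
    show Stmt.pd i (fun y => √(Stmt.mat D.g y).det * X i y) x = pd i (Z i) x
    rw [← h2]
    refine Vale.Agent.P366.T1.pd_congr' ?_ i
    filter_upwards [(isOpen_lt continuous_const D.dom.1.continuous).mem_nhds hF0] with y hy
    have hm2 : Stmt.mat D.g y = Stmt.mat (gM f) y := by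
      ext a b
      exact hg y (le_of_lt hy) a b
    show √(Stmt.mat D.g y).det * X i y = √(W2 f y) * X i y
    rw [hm2, det_gM]
  obtain ⟨R0, hR0⟩ := cov_out hB D.dom
  rw [h1, H375.CH.stokes_bodies_eq hB.sep hR0
    (fun i => (hZ i).of_le (by exact_mod_cast le_top)) hC, ← Finset.sum_neg_distrib]
  refine Finset.sum_le_sum fun k _ => ?_
  obtain ⟨ρ, hρ⟩ := hB.rad k
  refine neg_bflux_le (C k) hρ (fun i => (hZ i).continuous) fun x hx => ?_
  have hL := (lev_body (C k) hρ hf (hlev k) hx).2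
  have h0 : 0 ≤ D.F (bp (C k) x) := hB.nonneg_bp hx
  refine test_bound hL (fun i => X i (bp (C k) x)) ?_
  refine le_trans (le_of_eq ?_) (hX3 (bp (C k) x) h0)
  refine Finset.sum_congr rfl fun i _ => Finset.sum_congr rfl fun j _ => ?_
  rw [hg _ h0]

end Vale.Agent.P366.CH
end
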