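import Vale.Agent.P366.H707.CH.Area
import Vale.Agent.P366.H222.K.Cut

/-! The area of the boundary of the region outside several strictly convex bodies depends only on
the metric on the boundary. -/

open MeasureTheory Metric Filter Topology Set
open scoped ContDiff ENNReal

noncomputable section
namespace Vale.Agent.P366.CH

open Vale.Agent.P366 (pd E flux)
open Vale.Agent.P366.H353.N
open Vale.Agent.P366.Kerr (NullCone Psi IsCut)
open Vale.Agent.P366.KSN (Y dts sg Ms bflux OO mem_OO isOpen_OO)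
open Vale.Agent.P366.KSR (cutX)
open Vale.Agent.P366.KSD
open Vale.Agent.H45G (gM W2 W2_pos W2_ne smooth_W2 det_gM test_bound)

variable {n : ℕ} {ι : Type} {C : ι → NullCone n} {D D' X : Stmt.Exterior n} {f : E n → ℝ}

/-- A smooth positive function which is the identity for `δ / 2 ≤ t`. -/
def chp (δ t : ℝ) : ℝ :=
  Real.smoothTransition (4 * t / δ - 1) * t + (1 - Real.smoothTransition (4 * t / δ - 1))

lemma chp_smooth (δ : ℝ) : ContDiff ℝ ∞ (chp δ) := by
  have h1 : ContDiff ℝ ∞ fun t : ℝ => Real.smoothTransition (4 * t / δ - 1) :=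
    Real.smoothTransition.contDiff.comp
      (((contDiff_const.mul contDiff_id).div_const δ).sub contDiff_const)
  exact (h1.mul contDiff_id).add (contDiff_const.sub h1)

lemma chp_pos {δ : ℝ} (hδ : 0 < δ) (t : ℝ) : 0 < chp δ t := by
  unfold chp
  have h0 := Real.smoothTransition.nonneg (4 * t / δ - 1)
  have h1 := Real.smoothTransition.le_one (4 * t / δ - 1)
  rcases le_or_gt t (δ / 4) with ht | ht
  · have h2 : 4 * t / δ - 1 ≤ 0 := by
      rw [sub_nonpos, div_le_one hδ]
      linarith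
    rw [Real.smoothTransition.zero_of_nonpos h2]
    norm_num
  · have ht0 : 0 < t := by linarith
    rcases h0.eq_or_lt with h3 | h3
    · rw [← h3]
      norm_num
    · have := mul_pos h3 ht0
      linarith

lemma chp_eq {δ t : ℝ} (hδ : 0 < δ) (ht : δ / 2 ≤ t) : chp δ t = t := by
  unfold chp
  have h2 : 1 ≤ 4 * t / δ - 1 := by
    have : 2 ≤ 4 * t / δ := by
      rw [le_div_iff₀ hδ]
      linarith
    linarith
  rw [Real.smoothTransition.one_of_one_le h2]
  ring

lemma det_smooth (X : Stmt.Exterior n) : ContDiff ℝ ∞ fun y => (Stmt.mat X.g y).det := by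
  have e : (fun y => (Stmt.mat X.g y).det) = fun y => ∑ σ : Equiv.Perm (Fin n),
      (Equiv.Perm.sign σ : ℝ) * ∏ i, X.g y (σ i) i := by
    funext y
    rw [Matrix.det_apply']
    rfl
  rw [e]
  exact ContDiff.sum fun σ _ => contDiff_const.mul (contDiff_prod fun i _ => (X.smooth _ i).1)

/-- The area of the boundary, for a metric with a bound on the boundary. -/
theorem area_gen [Fact (3 ≤ n)] [Fintype ι] (hB : Bodies X.F C)
    (hbd : ∀ k (x : E n), ‖x‖ = 1 → ∀ v : Fin n → ℝ,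
      ∑ i, ∑ j, X.g (bp (C k) x) i j * v i * v j ≤ 1 →
      -(∑ i, √(Stmt.mat X.g (bp (C k) x)).det * v i * x i) ≤ 1) :
    X.area X.F ≤ ENNReal.ofReal (∑ k, SI (fun x => dts (C k).H ((C k).U x) x)) := by
  unfold Stmt.Exterior.area
  refine sSup_le ?_
  rintro a ⟨V, ⟨hX1, ⟨R, hX2⟩, hX3⟩, rfl⟩
  apply ENNReal.ofReal_le_ofReal
  -- a lower bound of the determinant
  obtain ⟨δ, hδ, hdet⟩ : ∃ δ, 0 < δ ∧ ∀ y : E n, ‖y‖ ≤ R → 0 ≤ X.F y →
      δ ≤ (Stmt.mat X.g y).det := by
    have hc : IsCompact (closedBall (0 : E n) R ∩ {y | 0 ≤ X.F y}) :=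
      (isCompact_closedBall 0 R).inter_right
        (isClosed_le continuous_const X.dom.1.continuous)
    by_cases hne : (closedBall (0 : E n) R ∩ {y | 0 ≤ X.F y}).Nonempty
    · obtain ⟨z, hz, hmin⟩ := hc.exists_isMinOn hne (det_smooth X).continuous.continuousOn
      exact ⟨_, (X.pos z hz.2).det_pos, fun y hy h0 => hmin ⟨by simpa using hy, h0⟩⟩
    · refine ⟨1, one_pos, fun y hy h0 => absurd ⟨y, ?_, h0⟩ hne⟩
      simpa using hy
  set Z : Fin n → E n → ℝ := fun i y => √(chp δ (Stmt.mat X.g y).det) * V i y with hZd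
  have hws : ContDiff ℝ ∞ fun y => √(chp δ (Stmt.mat X.g y).det) :=
    ((chp_smooth δ).comp (det_smooth X)).sqrt fun y => (chp_pos hδ _).ne'
  have hZ : ∀ i, ContDiff ℝ ∞ (Z i) := fun i => hws.mul (hX1 i)
  have hC : ∀ i y, R < ‖y‖ → Z i y = 0 := fun i y hy => by
    simp only [hZd]
    rw [hX2 y hy i, mul_zero]
  have hZe : ∀ y : E n, 0 ≤ X.F y → ∀ i, (fun y => √(Stmt.mat X.g y).det * V i y) =ᶠ[𝓝 y]
      Z i := by
    intro y hy i
    by_cases hyR : ‖y‖ ≤ R
    · have h1 : ∀ᶠ z in 𝓝 y, δ / 2 < (Stmt.mat X.g z).det :=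
        (det_smooth X).continuous.continuousAt.eventually
          (lt_mem_nhds (by have := hdet y hyR hy; linarith))
      filter_upwards [h1] with z hz
      simp only [hZd]
      rw [chp_eq hδ hz.le]
    · have h1 : ∀ᶠ z : E n in 𝓝 y, R < ‖z‖ :=
        continuous_norm.continuousAt.eventually (lt_mem_nhds (not_le.1 hyR))
      filter_upwards [h1] with z hz
      rw [hC i z hz, hX2 z hz i, mul_zero]
  rw [Vale.Agent.P366.vol_eq, setIntegral_congr_set (ae_dom hB)]
  have h1 : ∫ x in {y : E n | ∀ k, y ∈ OO (C k)},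
      ∑ i, Stmt.pd i (fun y => √(Stmt.mat X.g y).det * V i y) x =
      ∫ x in {y : E n | ∀ k, y ∈ OO (C k)}, ∑ i, pd i (Z i) x := by
    refine setIntegral_congr_fun (OO_all_open C).measurableSet fun x hx => ?_
    refine Finset.sum_congr rfl fun i _ => ?_
    have h2 : Stmt.pd i (Z i) x = pd i (Z i) x :=
      Vale.Agent.P366.Bridge.pd_eq ((hZ i).differentiable (by simp) x) i
    rw [← h2]
    exact Vale.Agent.P366.T1.pd_congr' (hZe x (hB.nonneg hx) i) i
  obtain ⟨R0, hR0⟩ := cov_out hB X.dom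
  rw [h1, H375.CH.stokes_bodies_eq hB.sep hR0
    (fun i => (hZ i).of_le (by exact_mod_cast le_top)) hC, ← Finset.sum_neg_distrib]
  refine Finset.sum_le_sum fun k _ => ?_
  obtain ⟨ρ, hρ⟩ := hB.rad k
  refine neg_bflux_le (C k) hρ (fun i => (hZ i).continuous) fun x hx => ?_
  have h0 : 0 ≤ X.F (bp (C k) x) := hB.nonneg_bp hx
  have h3 := hbd k x hx (fun i => V i (bp (C k) x)) (hX3 (bp (C k) x) h0)
  have h4 : ∑ i, Z i (bp (C k) x) * x i =
      ∑ i, √(Stmt.mat X.g (bp (C k) x)).det * V i (bp (C k) x) * x i :=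
    Finset.sum_congr rfl fun i _ => by rw [← (hZe _ h0 i).self_of_nhds]
  rw [h4]
  exact h3

/-- **[CH-Area], with a cut.** The area of the boundary in an exterior of which it is an enclosing
cut. -/
theorem area_bodies_cut [Fact (3 ≤ n)] [Fintype ι] (hB : Bodies D'.F C) (hO : IsCut D' D)
    (hf : Stmt.Smooth f) (hg : ∀ x, 0 ≤ D'.F x → ∀ i j, D'.g x i j = gM f x i j)
    (hlev : ∀ k x y, ‖x‖ = 1 → ‖y‖ = 1 → f (bp (C k) x) = f (bp (C k) y)) :
    D.area D'.F ≤ ENNReal.ofReal (∑ k, SI (fun x => dts (C k).H ((C k).U x) x)) := by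
  refine le_trans (outer_area (D' := cutX hO) (D := D) ⟨hO.sub, rfl, rfl⟩ D'.F) ?_
  refine area_gen (X := cutX hO) hB fun k x hx v hv => ?_
  obtain ⟨ρ, hρ⟩ := hB.rad k
  have hL := (lev_body (C k) hρ hf (hlev k) hx).2
  have h0 : D'.F (bp (C k) x) = 0 := hB.bdr k x hx
  have hgx : ∀ i j, (cutX hO).g (bp (C k) x) i j = gM f (bp (C k) x) i j := fun i j => by
    show D.g (bp (C k) x) i j = _
    rw [← hO.met _ h0 i j, hg _ h0.ge]
  have hm : Stmt.mat (cutX hO).g (bp (C k) x) = Stmt.mat (gM f) (bp (C k) x) := by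
    ext i j
    exact hgx i j
  rw [hm, det_gM]
  refine test_bound hL v ?_
  refine le_trans (le_of_eq ?_) hv
  refine Finset.sum_congr rfl fun i _ => Finset.sum_congr rfl fun j _ => ?_
  rw [hgx]

end Vale.Agent.P366.CH
end
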